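import Vale.Agent.P017.R3.Gen

/-!
# P017 density project: the descent of system 2 in two halves; the combined numerical statement
-/

open Finset

namespace Vale.Agent.P017.R3

open Vale.Agent.P017.R2.H985 (bit PF Pat sym Mat cork)

/-- (D1a) -/
def StmtD1a : Prop := ∀ n : ℕ, Squarefree n → Odd n → ¬ 3 ∣ n → ¬ 5 ∣ n → ∀ p : ℕ, p.Prime → 5 < p →
  ¬ p ∣ n → OK2 (n * p) → (n * p) % 4 = 3 →
  ck (ext (Mat n (sym n p)) (fun q => bit ((q : ℕ) : ℤ) 5) (fun q => bit ((q : ℕ) : ℤ) 3) 1) = 0 →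
  Vale.Agent.P017.H185.Cond1 ((n * p : ℕ) : ℚ)

/-- (D1b) -/
def StmtD1b : Prop := ∀ n : ℕ, Squarefree n → Odd n → ¬ 3 ∣ n → ¬ 5 ∣ n → ∀ p : ℕ, p.Prime → 5 < p →
  ¬ p ∣ n → OK2 (n * p) → (n * p) % 4 = 3 →
  ck (ext (Mat n (sym n p)) (fun q => bit ((q : ℕ) : ℤ) 5) (fun q => bit ((q : ℕ) : ℤ) 3) 1) = 0 →
  Vale.Agent.P017.H185.Cond2 ((n * p : ℕ) : ℚ)

theorem stmtD1_of (h1 : StmtD1a) (h2 : StmtD1b) : StmtD1 := fun n hn ho h3 h5 p hp p5 hpn ok h4 hc =>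
  ⟨h1 n hn ho h3 h5 p hp p5 hpn ok h4 hc, h2 n hn ho h3 h5 p hp p5 hpn ok h4 hc⟩

open Classical in
/-- (B14d) -/
def StmtNum4 : Prop := ∃ X₀ : ℕ, ∀ X : ℕ, X₀ ≤ X →
  (1055 / 10000 : ℝ) * X ≤
    ((Icc 1 X).filter (fun d => Squarefree d ∧ d % 4 = 3 ∧ (OKc d ∨ OK2 d))).card

end Vale.Agent.P017.R3
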