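import Vale.Agent.P017.R2.H985.Defs

/-!
# P017: explicit proportion of imaginary quadratic fields `K` with `X₀(15)(K)` finite

Interface of the modules (plan: progress row of helper985, 'density').
-/

open Finset

namespace Vale.Agent.P017.R3

open Vale.Agent.P017.H185 (Redei)
open Vale.Agent.P017.R2.H985 (bit PF Pat sym Mat cork)

/-! ### Primes in boxes -/

/-- the primes of `(l^j, l^(j+1)]` congruent to `e` modulo 4 -/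
noncomputable def Bx (l : ℝ) (j e : ℕ) : Finset ℕ :=
  (Ioc ⌊l ^ j⌋₊ ⌊l ^ (j + 1)⌋₊).filter (fun p => p.Prime ∧ p % 4 = e)

/-- weighted character sum over the box -/
noncomputable def Th (l : ℝ) (j e c : ℕ) : ℝ :=
  ∑ p ∈ Bx l j e, Real.log p * (jacobiSym p c : ℝ)

/-- (B1a) -/
def StmtPNT : Prop := ∀ l : ℝ, 1 < l → l ≤ 2 → ∀ ε : ℝ, 0 < ε → ∃ j₀ : ℕ, ∀ j : ℕ, j₀ ≤ j →
  ∀ e : ℕ, (e = 1 ∨ e = 3) → |Th l j e 1 - (l - 1) / 2 * l ^ j| ≤ ε * l ^ j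

/-- (B1b) -/
def StmtChar : Prop := ∀ l : ℝ, 1 < l → l ≤ 2 → ∀ (A : ℕ) (ε : ℝ), 0 < ε → ∃ j₀ : ℕ,
  ∀ j : ℕ, j₀ ≤ j → ∀ e : ℕ, (e = 1 ∨ e = 3) →
  ∑ c ∈ (Icc 2 ⌊l ^ (A * j)⌋₊).filter (fun c => Squarefree c ∧ Odd c), |Th l j e c| / c
    ≤ ε * l ^ j

/-- the symbols of the primes of the box are not equidistributed modulo the primes of `n` -/
def Bad (l δ : ℝ) (j e n : ℕ) : Prop := ∃ φ : Pat n,
  δ * (Bx l j e).card < |(Fintype.card (Pat n) : ℝ) *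
    ((Bx l j e).filter (fun p => sym n p = φ)).card - (Bx l j e).card|

open Classical in
/-- (B2) few bad `n` -/
def StmtBad : Prop := ∀ l : ℝ, 1 < l → l ≤ 2 → ∀ (A : ℕ) (δ ε : ℝ), 0 < δ → 0 < ε → ∃ j₀ : ℕ,
  ∀ j : ℕ, j₀ ≤ j → ∀ e : ℕ, (e = 1 ∨ e = 3) → ∀ Z : ℕ, (Z : ℝ) ≤ l ^ (A * j) →
  (((Icc 1 Z).filter (fun n => Squarefree n ∧ Odd n ∧
    (∀ p : ℕ, p ∈ n.primeFactors → (p : ℝ) ≤ l ^ j) ∧ Bad l δ j e n)).card : ℝ) ≤ ε * Z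

/-! ### The random matrix model over `𝔽₂` -/

/-- bordered matrix: `φ` new column, `ψ` new row, `w` corner -/
def ext {V : Type} (M : Matrix V V (ZMod 2)) (φ ψ : V → ZMod 2) (w : ZMod 2) :
    Matrix (Option V) (Option V) (ZMod 2) := fun a b =>
  match a, b with
  | some q, some q' => M q q'
  | some q, none => φ q
  | none, some q' => ψ q'
  | none, none => w

def extv {V : Type} (μ : V → ZMod 2) (e : ZMod 2) : Option V → ZMod 2 := fun a =>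
  match a with
  | some q => μ q
  | none => e

/-- corank -/
noncomputable def ck {V : Type} [Fintype V] (M : Matrix V V (ZMod 2)) : ℕ :=
  Module.finrank (ZMod 2) (LinearMap.ker (Matrix.mulVecLin M))

/-- average over `𝔽₂^V` -/
noncomputable def avg {V : Type} [Fintype V] [DecidableEq V] (f : (V → ZMod 2) → ℝ) : ℝ :=
  (∑ u, f u) / 2 ^ Fintype.card V

/-- probability that the final matrix is invertible; the row and the column of a new prime `p` are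
`φ` and `φ + ε(p) μ` -/
noncomputable def prob : List (ZMod 2) → (V : Type) → [Fintype V] → [DecidableEq V] →
    Matrix V V (ZMod 2) → (V → ZMod 2) → ℝ
  | [], _, _, _, M, _ => if ck M = 0 then 1 else 0
  | e :: ε, V, _, _, M, μ =>
    (∑ φ : V → ZMod 2, ∑ w : ZMod 2, prob ε (Option V) (ext M φ (φ + e • μ) w) (extv μ e)) /
      2 ^ (Fintype.card V + 1)

/-- reciprocity -/
def Rec {V : Type} (A : Matrix V V (ZMod 2)) (μ : V → ZMod 2) : Prop :=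
  ∀ a b, a ≠ b → A a b + A b a = μ a * μ b

/-- number of nonzero vectors in the right and in the left kernel -/
noncomputable def sp {V : Type} [Fintype V] [DecidableEq V] (M : Matrix V V (ZMod 2)) : ℕ :=
  (univ.filter fun x : V → ZMod 2 => x ≠ 0 ∧ M.mulVec x = 0 ∧ M.vecMul x = 0).card

/-- (B3a) transition probabilities of the corank -/
def StmtLA1 : Prop := ∀ (V : Type) [Fintype V] [DecidableEq V] (M : Matrix V V (ZMod 2))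
  (ν : V → ZMod 2), sp M = 0 → ∀ f : ℕ → ℝ,
  ∑ φ : V → ZMod 2, ∑ w : ZMod 2, f (ck (ext M φ (φ + ν) w)) =
    2 ^ (Fintype.card V + 1) * ((1 - (1 / 2 : ℝ) ^ ck M) ^ 2 * f (ck M - 1) +
      (1 - (1 - (1 / 2 : ℝ) ^ ck M) ^ 2 - (1 / 2 : ℝ) ^ (2 * ck M + 1)) * f (ck M) +
      (1 / 2 : ℝ) ^ (2 * ck M + 1) * f (ck M + 1))

/-- (B3b) first moment -/
def StmtLA2 : Prop := ∀ (V : Type) [Fintype V] [DecidableEq V] (M : Matrix V V (ZMod 2))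
  (ν : V → ZMod 2),
  ∑ φ : V → ZMod 2, ∑ w : ZMod 2, (2 : ℝ) ^ ck (ext M φ (φ + ν) w) ≤
    2 ^ (Fintype.card V + 1) * ((2 : ℝ) ^ ck M / 2 + 1)

/-- (B3c) vectors in both kernels -/
def StmtLA3 : Prop := ∀ (V : Type) [Fintype V] [DecidableEq V] (M : Matrix V V (ZMod 2))
  (μ : V → ZMod 2) (e : ZMod 2), Rec M μ →
  ∑ φ : V → ZMod 2, ∑ w : ZMod 2, (sp (ext M φ (φ + e • μ) w) : ℝ) ≤
    2 ^ (Fintype.card V + 1) * ((sp M : ℝ) / 2 + (1 / 2 : ℝ) ^ (univ.filter fun a => μ a = 1).card)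

/-- the limit `∏ (1 - 2^{-i}) = 0.2887…` -/
noncomputable def eta : ℝ := ⨅ k : ℕ, ∏ i ∈ range k, (1 - (1 / 2 : ℝ) ^ (i + 1))

/-- (B4) -/
def StmtRM : Prop := ∀ η B : ℝ, η < eta → ∃ h k : ℕ, ∀ (ε : List (ZMod 2)) (V : Type) [Fintype V]
  [DecidableEq V] (A : Matrix V V (ZMod 2)) (μ : V → ZMod 2), Rec A μ →
  h ≤ (ε.take (ε.length - k)).count 1 →
  avg (fun u : V → ZMod 2 => (2 : ℝ) ^ ck (A + Matrix.diagonal u)) ≤ B →
  η ≤ avg (fun u : V → ZMod 2 => prob ε V (A + Matrix.diagonal u) μ)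

/-! ### Dictionary -/

/-- the symbols `(q'/q)`, row `q`, column `q'`, zero diagonal -/
def AA (n : ℕ) : Matrix (PF n) (PF n) (ZMod 2) := fun q q' =>
  if q' = q then 0 else bit ((q' : ℕ) : ℤ) (q : ℕ)

def mu (n : ℕ) : PF n → ZMod 2 := fun q => if (q : ℕ) % 4 = 3 then 1 else 0

def eps (p : ℕ) : ZMod 2 := if p % 4 = 3 then 1 else 0

noncomputable def FF (ε : List (ZMod 2)) (n : ℕ) : ℝ :=
  avg (fun u : PF n → ZMod 2 => prob ε (PF n) (AA n + Matrix.diagonal u) (mu n))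

/-- (B5) -/
def StmtDict : Prop :=
  (∀ n : ℕ, Squarefree n → Odd n → Rec (AA n) (mu n)) ∧
  (∀ n : ℕ, ∀ g : ℕ → ℝ, ∑ w : Pat n, g (cork n w) =
    ∑ u : PF n → ZMod 2, g (ck (AA n + Matrix.diagonal u))) ∧
  (∀ (ε : List (ZMod 2)) (n : ℕ), 0 ≤ FF ε n ∧ FF ε n ≤ 1) ∧
  (∀ n : ℕ, Squarefree n → Odd n → ∀ (ε : List (ZMod 2)) (e : ℕ), (e = 1 ∨ e = 3) →
    ∃ G : Pat n → ℝ, (∀ φ, 0 ≤ G φ) ∧
      (∀ p : ℕ, p.Prime → ¬ p ∣ n → p % 4 = e → FF ε (n * p) = G (sym n p)) ∧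
      ∑ φ, G φ = 2 ^ n.primeFactors.card * FF (eps e :: ε) n)

/-! ### Cells -/

/-- local conditions at 3 (not inert) and at 5 (not split) -/
def OKc (d : ℕ) : Prop := (3 ∣ d ∨ d % 3 = 2) ∧ (5 ∣ d ∨ d % 5 = 2 ∨ d % 5 = 3)

open Classical in
noncomputable def Cnt (l : ℝ) : List (ℕ × ℕ) → ℕ → ℕ
  | [], n => if OKc n ∧ Redei n then 1 else 0
  | b :: bs, n => ∑ p ∈ Bx l b.1 b.2, Cnt l bs (n * p)

open Classical in
noncomputable def Tot (l : ℝ) : List (ℕ × ℕ) → ℕ → ℕ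
  | [], n => if OKc n then 1 else 0
  | b :: bs, n => ∑ p ∈ Bx l b.1 b.2, Tot l bs (n * p)

noncomputable def All (l : ℝ) : List (ℕ × ℕ) → ℕ
  | [] => 1
  | b :: bs => (Bx l b.1 b.2).card * All l bs

open Classical in
/-- number of tuples in the boxes, each counted with the number of its bad prefixes -/
noncomputable def ExW (l δ : ℝ) : List (ℕ × ℕ) → ℕ → ℕ
  | [], _ => 0
  | b :: bs, n => (if Bad l δ b.1 b.2 (Nat.lcm n 15) then All l (b :: bs) else 0) +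
      ∑ p ∈ Bx l b.1 b.2, ExW l δ bs (n * p)

/-- (B5') Redei's condition from the matrix -/
def StmtRed2 : Prop := ∀ n : ℕ, Squarefree n → Odd n → ∀ p : ℕ, p.Prime → p ≠ 2 → ¬ p ∣ n →
  cork n (sym n p) = 0 → Redei (n * p)

/-- number of the conditions at 3 and 5 not decided by `n` -/
def free (n : ℕ) : ℕ := (if 3 ∣ n then 0 else 1) + (if 5 ∣ n then 0 else 1)

/-- (B6) -/
def StmtCell : Prop := ∀ (l δ : ℝ), 1 < l → 0 < δ → δ < 1 → ∀ (b : ℕ × ℕ) (bs : List (ℕ × ℕ)),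
  ((b :: bs).map Prod.fst).Pairwise (· < ·) → (∀ c ∈ b :: bs, c.2 = 1 ∨ c.2 = 3) →
  5 ≤ l ^ b.1 → ∀ n : ℕ, Squarefree n → Odd n → (∀ p ∈ n.primeFactors, (p : ℝ) ≤ l ^ b.1) →
  (1 - δ) ^ (b :: bs).length * (FF (((b :: bs).dropLast).map (fun c => eps c.2)) n *
      ((All l (b :: bs) : ℝ) / 2 ^ free n)) - ExW l δ (b :: bs) n ≤ Cnt l (b :: bs) n ∧
  (Tot l (b :: bs) n : ℝ) ≤ (1 + δ) * ((All l (b :: bs) : ℝ) / 2 ^ free n) + ExW l δ (b :: bs) n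

/-! ### Counting -/

/-- `z`-smooth part -/
noncomputable def smp (z : ℝ) (d : ℕ) : ℕ := ∏ p ∈ d.primeFactors.filter (fun p : ℕ => (p : ℝ) ≤ z), p

/-- index of the box of `q`: `l^(bi l q) < q ≤ l^(bi l q + 1)` -/
noncomputable def bi (l : ℝ) (q : ℕ) : ℕ := ⌈Real.logb l q⌉₊ - 1

open Classical in
/-- (B7) most integers have many prime factors `3 mod 4` in `(X^a, X^b]` -/
def StmtTK : Prop := ∀ (k : ℕ) (δ b : ℝ), 0 < δ → 0 < b → b ≤ 1 / 4 → ∃ a : ℝ, 0 < a ∧ a < b ∧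
  ∃ X₀ : ℕ, ∀ X : ℕ, X₀ ≤ X →
  (((Icc 1 X).filter (fun d => (d.primeFactors.filter (fun p : ℕ => p % 4 = 3 ∧
    (X : ℝ) ^ a < p ∧ (p : ℝ) ≤ (X : ℝ) ^ b)).card < k)).card : ℝ) ≤ δ * X

open Classical in
/-- (B8a) -/
def StmtSmooth : Prop := ∀ δ : ℝ, 0 < δ → ∃ U : ℕ, 1 ≤ U ∧ ∀ z : ℝ, 2 ≤ z → ∀ X : ℕ,
  (((Icc 1 X).filter (fun d => Squarefree d ∧ z ^ U < smp z d)).card : ℝ) ≤ δ * X

open Classical in
/-- (B8b) -/
def StmtSame : Prop := ∀ a δ : ℝ, 0 < a → 0 < δ → ∃ X₀ : ℕ, ∀ X : ℕ, X₀ ≤ X →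
  (((Icc 1 X).filter (fun d => ∃ p q : ℕ, p.Prime ∧ q.Prime ∧ (X : ℝ) ^ a < p ∧ p < q ∧
    q ≤ 2 * p ∧ p * q ∣ d)).card : ℝ) ≤ δ * X

open Classical in
/-- (B9) upper bound sieve -/
def StmtSieve : Prop := ∃ C : ℝ, 0 < C ∧ ∀ z : ℝ, 2 ≤ z → ∀ Z : ℕ, z ≤ Z →
  (((Icc 1 Z).filter (fun n => ∀ p : ℕ, p ∈ n.primeFactors → z < p)).card : ℝ) ≤ C * Z / Real.log z

/-- first moment over all odd squarefree `m` -/
def StmtFirst2 : Prop := ∃ C : ℝ, 0 < C ∧ ∀ Y : ℕ, 2 ≤ Y →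
  ∑ m ∈ (Icc 1 Y).filter (fun m => Squarefree m ∧ Odd m),
    (∑ b ∈ m.divisors, ∑ c ∈ (m / b).divisors, (jacobiSym b c : ℝ)) /
      (2 ^ m.primeFactors.card * m) ≤ C * Real.log Y

open Classical in
/-- (B10) -/
def StmtCk : Prop := ∀ (δ : ℝ) (U : ℕ), 0 < δ → ∃ B : ℝ, ∀ z : ℝ, 2 ≤ z → ∀ X : ℕ,
  z ^ (2 * U + 2) ≤ X →
  (((Icc 1 X).filter (fun d => Squarefree d ∧ Odd d ∧ (smp z d : ℝ) ≤ z ^ U ∧
    B < avg (fun u : PF (smp z d) → ZMod 2 =>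
      (2 : ℝ) ^ ck (AA (smp z d) + Matrix.diagonal u)))).card : ℝ) ≤ δ * X

open Classical in
/-- (B11) few bad prefixes -/
def StmtEx : Prop := ∀ l : ℝ, 1 < l → l ≤ 2 → ∀ a δ' δ : ℝ, 0 < a → 0 < δ' → 0 < δ → ∃ X₀ : ℕ,
  ∀ X : ℕ, X₀ ≤ X →
  ∑ d ∈ (Icc 1 X).filter (fun d => Squarefree d ∧ Odd d),
    ((d.primeFactors.filter (fun q : ℕ => (X : ℝ) ^ a < q ∧
      (∀ p ∈ d.primeFactors, p < q → (p : ℝ) ≤ l ^ bi l q) ∧
      Bad l δ' (bi l q) (q % 4) (Nat.lcm (∏ p ∈ d.primeFactors.filter (· < q), p) 15))).card : ℝ)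
    ≤ δ * X

open Classical in
/-- (B13) density theorem -/
def StmtDens : Prop := ∀ η : ℝ, η < eta → ∃ X₀ : ℕ, ∀ X : ℕ, X₀ ≤ X →
  η * ((Icc 1 X).filter (fun d => Squarefree d ∧ d % 4 = 3 ∧ OKc d)).card ≤
    ((Icc 1 X).filter (fun d => Squarefree d ∧ d % 4 = 3 ∧ OKc d ∧ Redei d)).card

/-- (B13) -/
def StmtAsm3 : Prop := StmtTK → StmtSmooth → StmtSame → StmtCk → StmtEx → StmtRM → StmtDict →
  StmtCell → StmtDens

/-! ### Numbers -/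

/-- `-n` is a fundamental discriminant -/
def IsFund (n : ℕ) : Prop := (Squarefree n ∧ n % 4 = 3) ∨
  ∃ m : ℕ, n = 4 * m ∧ Squarefree m ∧ (m % 4 = 1 ∨ m % 4 = 2)

open Classical in
/-- (B14a) -/
def StmtNum1 : Prop := ∃ X₀ : ℕ, ∀ X : ℕ, X₀ ≤ X →
  (7385 / 100000 : ℝ) * X ≤ ((Icc 1 X).filter (fun d => Squarefree d ∧ d % 4 = 3 ∧ OKc d)).card

open Classical in
/-- (B14b) -/
def StmtNum2 : Prop := ∃ X₀ : ℕ, ∀ X : ℕ, X₀ ≤ X →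
  (((Icc 1 X).filter IsFund).card : ℝ) ≤ 30397 / 100000 * X

/-- (B14c) -/
def StmtNum3 : Prop := (2887 / 10000 : ℝ) < eta

end Vale.Agent.P017.R3
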