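import Vale.Agent.P017.R3.Sys

/-!
# P017 density project: random matrix model with one special row and column; system 2
-/

open Finset

namespace Vale.Agent.P017.R3

open Vale.Agent.P017.R2.H985 (bit PF Pat sym Mat cork)

/-- random model with a special index `st` (at most one `a` with `st a = 1`) at which the entries
of the new row and of the new column are independent; `prob` is the case `st = 0` -/
noncomputable def prob2 : List (ZMod 2) → (V : Type) → [Fintype V] → [DecidableEq V] →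
    Matrix V V (ZMod 2) → (V → ZMod 2) → (V → ZMod 2) → ℝ
  | [], _, _, _, M, _, _ => if ck M = 0 then 1 else 0
  | e :: ε, V, _, _, M, μ, st =>
    (∑ φ : V → ZMod 2, ∑ w : ZMod 2, ∑ χ : ZMod 2,
      prob2 ε (Option V) (ext M φ (φ + (e • μ + χ • st)) w) (extv μ e) (extv st 0)) /
      2 ^ (Fintype.card V + 2)

/-- reciprocity away from the special index -/
structure Rec2 {V : Type} (A : Matrix V V (ZMod 2)) (μ st : V → ZMod 2) : Prop where
  recip : ∀ a b, a ≠ b → st a = 0 → st b = 0 → A a b + A b a = μ a * μ b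
  one : ∀ a b, st a = 1 → st b = 1 → a = b
  zero : ∀ a, st a = 1 → μ a = 0

/-- (B3c') replaces (B3c) -/
def StmtLA3g : Prop := ∀ (V : Type) [Fintype V] [DecidableEq V] (M : Matrix V V (ZMod 2))
  (μ st : V → ZMod 2) (e χ : ZMod 2), Rec2 M μ st →
  ∑ φ : V → ZMod 2, ∑ w : ZMod 2, (sp (ext M φ (φ + (e • μ + χ • st)) w) : ℝ) ≤
    2 ^ (Fintype.card V + 1) * ((sp M : ℝ) / 2 + (1 / 2 : ℝ) ^ (univ.filter fun a => μ a = 1).card)

/-- (B4') replaces (B4) -/
def StmtRMg : Prop := ∀ η B : ℝ, η < eta → ∃ h k : ℕ, ∀ (ε : List (ZMod 2)) (V W : Type)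
  [Fintype V] [DecidableEq V] [Fintype W] [Nonempty W]
  (A : W → Matrix V V (ZMod 2)) (μ st : V → ZMod 2), (∀ u, Rec2 (A u) μ st) →
  h ≤ (ε.take (ε.length - k)).count 1 →
  (∑ u : W, (2 : ℝ) ^ ck (A u)) / Fintype.card W ≤ B →
  η ≤ (∑ u : W, prob2 ε V (A u) μ st) / Fintype.card W

/-- (B4'') -/
def StmtRM1 : Prop := StmtRMg → StmtRM

/-- probability for system 2 -/
noncomputable def FF2 (ε : List (ZMod 2)) (n : ℕ) : ℝ :=
  if 3 ∣ n ∨ 5 ∣ n then 0 else
    avg (fun u : PF n → ZMod 2 => prob2 ε (Option (PF n)) (MM2 n u) (extv (mu n) 0) (extv 0 1))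

noncomputable def S2 : Sys := ⟨OK2, Rd2, FF2, fun _ => 2⟩

/-- (D2) -/
def StmtS2 : Prop := StmtD1 → StmtRMg → S2.Hyp ∧ S2.StmtRM

end Vale.Agent.P017.R3
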