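import Vale.Agent.P017.R3.Defs

/-!
# P017 density project: the same interface with abstract local conditions

`S.OK` local conditions, `S.Rd` the wanted property, `S.f ε n` the probability of the model,
`S.fr n` the number of free local conditions.  System 1 is `(OKc, Redei, FF, free)`.
-/

open Finset

namespace Vale.Agent.P017.R3

open Vale.Agent.P017.R2.H985 (bit PF Pat sym Mat cork)

structure Sys where
  OK : ℕ → Prop
  Rd : ℕ → Prop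
  f : List (ZMod 2) → ℕ → ℝ
  fr : ℕ → ℕ

namespace Sys

open Classical in
noncomputable def Cnt (S : Sys) (l : ℝ) : List (ℕ × ℕ) → ℕ → ℕ
  | [], n => if S.OK n ∧ S.Rd n then 1 else 0
  | b :: bs, n => ∑ p ∈ Bx l b.1 b.2, S.Cnt l bs (n * p)

open Classical in
noncomputable def Tot (S : Sys) (l : ℝ) : List (ℕ × ℕ) → ℕ → ℕ
  | [], n => if S.OK n then 1 else 0
  | b :: bs, n => ∑ p ∈ Bx l b.1 b.2, S.Tot l bs (n * p)

/-- the properties of the system used in the cell estimate -/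
structure Hyp (S : Sys) : Prop where
  range : ∀ (ε : List (ZMod 2)) (n : ℕ), 0 ≤ S.f ε n ∧ S.f ε n ≤ 1
  frp : ∀ n p : ℕ, p.Prime → 5 < p → S.fr (n * p) = S.fr n
  step : ∀ n : ℕ, Squarefree n → Odd n → ∀ (ε : List (ZMod 2)) (e : ℕ), (e = 1 ∨ e = 3) →
    ∃ G : Pat (Nat.lcm n 15) → ℝ, (∀ φ, 0 ≤ G φ) ∧
      (∀ p : ℕ, p.Prime → 5 < p → ¬ p ∣ n → p % 4 = e → S.f ε (n * p) = G (sym (Nat.lcm n 15) p)) ∧
      ∑ φ, G φ = Fintype.card (Pat (Nat.lcm n 15)) * S.f (eps e :: ε) n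
  base : ∀ n : ℕ, Squarefree n → Odd n → ∀ e : ℕ, (e = 1 ∨ e = 3) →
    ∃ A B : Finset (Pat (Nat.lcm n 15)),
      (∀ p : ℕ, p.Prime → 5 < p → ¬ p ∣ n → p % 4 = e → sym (Nat.lcm n 15) p ∈ A →
        S.OK (n * p) ∧ S.Rd (n * p)) ∧
      (∀ p : ℕ, p.Prime → 5 < p → ¬ p ∣ n → p % 4 = e → S.OK (n * p) →
        sym (Nat.lcm n 15) p ∈ B) ∧
      S.f [] n * (Fintype.card (Pat (Nat.lcm n 15)) / 2 ^ S.fr n) ≤ A.card ∧
      (B.card : ℝ) ≤ Fintype.card (Pat (Nat.lcm n 15)) / 2 ^ S.fr n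

/-- (B6') cell estimate -/
def StmtCell (S : Sys) : Prop := ∀ (l δ : ℝ), 1 < l → 0 < δ → δ < 1 →
  ∀ (b : ℕ × ℕ) (bs : List (ℕ × ℕ)),
  ((b :: bs).map Prod.fst).Pairwise (· < ·) → (∀ c ∈ b :: bs, c.2 = 1 ∨ c.2 = 3) →
  5 ≤ l ^ b.1 → ∀ n : ℕ, Squarefree n → Odd n → (∀ p ∈ n.primeFactors, (p : ℝ) ≤ l ^ b.1) →
  (1 - δ) ^ (b :: bs).length * (S.f (((b :: bs).dropLast).map (fun c => eps c.2)) n *
      ((All l (b :: bs) : ℝ) / 2 ^ S.fr n)) - ExW l δ (b :: bs) n ≤ S.Cnt l (b :: bs) n ∧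
  (S.Tot l (b :: bs) n : ℝ) ≤ (1 + δ) * ((All l (b :: bs) : ℝ) / 2 ^ S.fr n) +
    ExW l δ (b :: bs) n

/-- lower bound of the probabilities -/
def StmtRM (S : Sys) : Prop := ∀ η B : ℝ, η < eta → ∃ h k : ℕ, ∀ (ε : List (ZMod 2)) (m d : ℕ),
  Squarefree m → Odd m → m ∣ d → S.OK d → h ≤ (ε.take (ε.length - k)).count 1 →
  avg (fun u : PF m → ZMod 2 => (2 : ℝ) ^ ck (AA m + Matrix.diagonal u)) ≤ B →
  η ≤ S.f ε m

open Classical in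
/-- density, additive form -/
def StmtDens (S : Sys) : Prop := ∀ η δ : ℝ, η < eta → 0 < δ → ∃ X₀ : ℕ, ∀ X : ℕ, X₀ ≤ X →
  η * ((Icc 1 X).filter (fun d => Squarefree d ∧ d % 4 = 3 ∧ S.OK d)).card - δ * X ≤
    ((Icc 1 X).filter (fun d => Squarefree d ∧ d % 4 = 3 ∧ S.OK d ∧ S.Rd d)).card

end Sys

/-- (B6') -/
def StmtCellGen : Prop := ∀ S : Sys, S.Hyp → S.StmtCell

/-- (B13') -/
def StmtAsmGen : Prop := StmtTK → StmtSmooth → StmtSame → StmtCk → StmtEx → ∀ S : Sys, S.Hyp →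
  S.StmtCell → S.StmtRM → S.StmtDens

/-- system 1 -/
noncomputable def S1 : Sys := ⟨OKc, Vale.Agent.P017.H185.Redei, FF, free⟩

/-- (B5'') -/
def StmtS1 : Prop := S1.Hyp ∧ (StmtRM → S1.StmtRM)

/-! ### System 2: 3 inert, 5 split -/

/-- `3` is inert and `5` is split in `ℚ(√-d)` -/
def OK2 (d : ℕ) : Prop := d % 3 = 1 ∧ (d % 5 = 1 ∨ d % 5 = 4)

/-- conclusion of the 2-isogeny descent -/
def Rd2 (d : ℕ) : Prop := d % 4 = 3 → Vale.Agent.P017.H185.Cond1 (d : ℚ) ∧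
  Vale.Agent.P017.H185.Cond2 (d : ℚ)

/-- bordered matrix: new row `(q/3)`, new column `(q/5)`, corner `1` -/
def MM2 (n : ℕ) (u : PF n → ZMod 2) : Matrix (Option (PF n)) (Option (PF n)) (ZMod 2) :=
  ext (AA n + Matrix.diagonal u) (fun q => bit ((q : ℕ) : ℤ) 5) (fun q => bit ((q : ℕ) : ℤ) 3) 1

/-- (D1) descent -/
def StmtD1 : Prop := ∀ n : ℕ, Squarefree n → Odd n → ¬ 3 ∣ n → ¬ 5 ∣ n → ∀ p : ℕ, p.Prime → 5 < p →
  ¬ p ∣ n → OK2 (n * p) → (n * p) % 4 = 3 →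
  ck (ext (Mat n (sym n p)) (fun q => bit ((q : ℕ) : ℤ) 5) (fun q => bit ((q : ℕ) : ℤ) 3) 1) = 0 →
  Vale.Agent.P017.H185.Cond1 ((n * p : ℕ) : ℚ) ∧ Vale.Agent.P017.H185.Cond2 ((n * p : ℕ) : ℚ)

end Vale.Agent.P017.R3
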